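import Mathlib
import Vale.Agent.P209.H710.Nec.Defs

/-!
# P209, row VOL: the volume condition

A symplectic map has Jacobian determinant `±1`, so that a symplectic embedding preserves the
volume; comparing volumes, a packing of the open ball of capacity `R` by closed balls of capacities
`r i` satisfies `∑ r iⁿ < Rⁿ`.
-/

namespace Vale.Agent.P209.H753

open MeasureTheory Set
open scoped ContDiff Pointwise

noncomputable section

variable {n : ℕ}

/-- The symplectic form as a bilinear form. -/
def omB (n : ℕ) : LinearMap.BilinForm ℝ (Fin n → ℂ) :=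
  LinearMap.mk₂ ℝ (fun v w => omega v w)
    (fun v v' w => by
      simp only [omega, ← Finset.sum_add_distrib, Pi.add_apply, Complex.add_re, Complex.add_im]
      exact Finset.sum_congr rfl fun j _ => by ring)
    (fun c v w => by
      simp only [omega, smul_eq_mul, Finset.mul_sum, Pi.smul_apply, Complex.smul_re,
        Complex.smul_im]
      exact Finset.sum_congr rfl fun j _ => by ring)
    (fun v w w' => by
      simp only [omega, ← Finset.sum_add_distrib, Pi.add_apply, Complex.add_re, Complex.add_im]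
      exact Finset.sum_congr rfl fun j _ => by ring)
    (fun c v w => by
      simp only [omega, smul_eq_mul, Finset.mul_sum, Pi.smul_apply, Complex.smul_re,
        Complex.smul_im]
      exact Finset.sum_congr rfl fun j _ => by ring)

theorem omB_apply (v w : Fin n → ℂ) : omB n v w = omega v w := rfl

theorem omB_nondegenerate : (omB n).Nondegenerate := by
  refine LinearMap.BilinForm.Nondegenerate.ofSeparatingLeft ?_
  intro v hv
  funext j
  have h1 := hv (Pi.single j Complex.I)
  have h2 := hv (Pi.single j 1)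
  rw [omB_apply] at h1 h2
  have e1 : omega v (Pi.single j Complex.I) = (v j).re := by
    rw [omega, Finset.sum_eq_single j]
    · simp
    · intro b _ hb
      simp [Pi.single_eq_of_ne hb]
    · simp
  have e2 : omega v (Pi.single j 1) = -(v j).im := by
    rw [omega, Finset.sum_eq_single j]
    · simp
    · intro b _ hb
      simp [Pi.single_eq_of_ne hb]
    · simp
  apply Complex.ext
  · rw [← e1, h1]; rfl
  · have : (v j).im = 0 := by linarith
    rw [this]; rfl

/-- A linear map that preserves the symplectic form has determinant `±1`. -/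
theorem abs_det_eq_one (A : (Fin n → ℂ) →ₗ[ℝ] (Fin n → ℂ))
    (hA : ∀ v w, omega (A v) (A w) = omega v w) : |LinearMap.det A| = 1 := by
  classical
  let b := Module.finBasis ℝ (Fin n → ℂ)
  have h0 : (omB n).comp A A = omB n :=
    LinearMap.ext fun v => LinearMap.ext fun w => hA v w
  have h1 := LinearMap.BilinForm.toMatrix_comp b b (omB n) A A
  rw [h0] at h1
  have h2 := congrArg Matrix.det h1
  rw [Matrix.det_mul, Matrix.det_mul, Matrix.det_transpose, LinearMap.det_toMatrix] at h2
  have h3 : (LinearMap.BilinForm.toMatrix b (omB n)).det ≠ 0 :=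
    (LinearMap.BilinForm.nondegenerate_iff_det_ne_zero b).1 omB_nondegenerate
  have h4 : LinearMap.det A * LinearMap.det A = 1 := by
    have : (LinearMap.BilinForm.toMatrix b (omB n)).det *
        (LinearMap.det A * LinearMap.det A - 1) = 0 := by linear_combination -h2
    rcases mul_eq_zero.1 this with h | h
    · exact absurd h h3
    · linarith
  rcases mul_self_eq_one_iff.1 h4 with h | h <;> simp [h]

theorem continuous_nrm : Continuous fun z : Fin n → ℂ => Real.pi * ∑ j, ‖z j‖ ^ 2 := by
  fun_prop

theorem isClosed_closedBall (r : ℝ) : IsClosed (closedBall n r) :=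
  isClosed_le continuous_nrm continuous_const

theorem isBounded_closedBall (r : ℝ) : Bornology.IsBounded (closedBall n r) := by
  rw [isBounded_iff_forall_norm_le]
  refine ⟨Real.sqrt (r / Real.pi), fun z hz => ?_⟩
  rw [pi_norm_le_iff_of_nonneg (Real.sqrt_nonneg _)]
  intro j
  apply Real.le_sqrt_of_sq_le
  rw [le_div_iff₀ Real.pi_pos]
  have h1 : ‖z j‖ ^ 2 ≤ ∑ j, ‖z j‖ ^ 2 :=
    Finset.single_le_sum (f := fun j => ‖z j‖ ^ 2) (fun i _ => by positivity) (Finset.mem_univ j)
  have h2 : Real.pi * ∑ j, ‖z j‖ ^ 2 ≤ r := hz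
  nlinarith [Real.pi_pos]

theorem isCompact_closedBall (r : ℝ) : IsCompact (closedBall n r) :=
  Metric.isCompact_of_isClosed_isBounded (isClosed_closedBall r) (isBounded_closedBall r)

theorem closedBall_eq_smul {r : ℝ} (hr : 0 < r) :
    closedBall n r = Real.sqrt r • closedBall n 1 := by
  have h0 : Real.sqrt r ≠ 0 := (Real.sqrt_pos.2 hr).ne'
  ext z
  rw [Set.mem_smul_set_iff_inv_smul_mem₀ h0]
  have h1 : ∑ j, ‖((Real.sqrt r)⁻¹ • z) j‖ ^ 2 = r⁻¹ * ∑ j, ‖z j‖ ^ 2 := by
    rw [Finset.mul_sum]
    refine Finset.sum_congr rfl fun j _ => ?_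
    rw [Pi.smul_apply, norm_smul, mul_pow, norm_inv, Real.norm_of_nonneg (Real.sqrt_nonneg r),
      inv_pow, Real.sq_sqrt hr.le]
  change Real.pi * ∑ j, ‖z j‖ ^ 2 ≤ r ↔ Real.pi * ∑ j, ‖((Real.sqrt r)⁻¹ • z) j‖ ^ 2 ≤ 1
  rw [h1, mul_left_comm, inv_mul_le_iff₀ hr, mul_one]

theorem finrank_eq : Module.finrank ℝ (Fin n → ℂ) = 2 * n := by
  rw [Module.finrank_pi_fintype]
  simp [Complex.finrank_real_complex, mul_comm]

theorem volume_closedBall {r : ℝ} (hr : 0 < r) :
    volume (closedBall n r) = ENNReal.ofReal (r ^ n) * volume (closedBall n 1) := by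
  rw [closedBall_eq_smul hr, Measure.addHaar_smul, finrank_eq, pow_mul, Real.sq_sqrt hr.le,
    abs_of_nonneg (by positivity)]

theorem volume_closedBall_pos {r : ℝ} (hr : 0 < r) : 0 < volume (closedBall n r) := by
  have h1 : openBall n r ⊆ closedBall n r := fun z hz => le_of_lt (show _ < r from hz)
  have h2 : IsOpen (openBall n r) := isOpen_lt continuous_nrm continuous_const
  have h3 : (openBall n r).Nonempty := ⟨0, by simp [openBall, hr]⟩
  exact (h2.measure_pos volume h3).trans_le (measure_mono h1)

theorem volume_closedBall_lt_top (r : ℝ) : volume (closedBall n r) < ⊤ :=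
  (isCompact_closedBall r).measure_lt_top

/-- A symplectic embedding preserves the volume. -/
theorem volume_image {r : ℝ} {f : (Fin n → ℂ) → (Fin n → ℂ)} (hf : IsSymplecticEmbedding r f) :
    volume (f '' closedBall n r) = volume (closedBall n r) := by
  obtain ⟨U, hU, hrU, hs, he, ho⟩ := hf
  have hd : ∀ z ∈ closedBall n r, HasFDerivWithinAt f (fderiv ℝ f z) (closedBall n r) z := by
    intro z hz
    have h1 : ContDiffAt ℝ ∞ f z := (hs z (hrU hz)).contDiffAt (hU.mem_nhds (hrU hz))
    exact (h1.differentiableAt (by simp)).hasFDerivAt.hasFDerivWithinAt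
  have hi : InjOn f (closedBall n r) := by
    intro z hz w hw h
    have := he.injective (a₁ := ⟨z, hrU hz⟩) (a₂ := ⟨w, hrU hw⟩) h
    exact congrArg Subtype.val this
  rw [← lintegral_abs_det_fderiv_eq_addHaar_image volume (isClosed_closedBall r).measurableSet hd hi]
  have h2 : ∀ z ∈ closedBall n r, ENNReal.ofReal |(fderiv ℝ f z).det| = 1 := by
    intro z hz
    have h3 := abs_det_eq_one (n := n) (fderiv ℝ f z : (Fin n → ℂ) →ₗ[ℝ] (Fin n → ℂ))
      (fun v w => ho z (hrU hz) v w)
    rw [ContinuousLinearMap.det, h3, ENNReal.ofReal_one]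
  rw [setLIntegral_congr_fun (isClosed_closedBall r).measurableSet h2]
  simp

theorem isCompact_image {r : ℝ} {f : (Fin n → ℂ) → (Fin n → ℂ)} (hf : IsSymplecticEmbedding r f) :
    IsCompact (f '' closedBall n r) := by
  obtain ⟨U, hU, hrU, hs, he, ho⟩ := hf
  exact (isCompact_closedBall r).image_of_continuousOn (hs.continuousOn.mono hrU)

/-- A compact subset of the open ball lies in a smaller closed ball. -/
theorem exists_closedBall {K : Set (Fin n → ℂ)} (hK : IsCompact K) {R : ℝ} (hR : 0 < R)
    (h : K ⊆ openBall n R) : ∃ R', 0 < R' ∧ R' < R ∧ K ⊆ closedBall n R' := by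
  rcases K.eq_empty_or_nonempty with h0 | h0
  · exact ⟨R / 2, by linarith, by linarith, by simp [h0]⟩
  · obtain ⟨z, hz, hm⟩ := hK.exists_isMaxOn h0 (continuous_nrm (n := n)).continuousOn
    have h1 : Real.pi * ∑ j, ‖z j‖ ^ 2 < R := h hz
    refine ⟨max (R / 2) (Real.pi * ∑ j, ‖z j‖ ^ 2), lt_max_of_lt_left (by linarith),
      max_lt (by linarith) h1, fun w hw => ?_⟩
    have h2 : Real.pi * ∑ j, ‖w j‖ ^ 2 ≤ Real.pi * ∑ j, ‖z j‖ ^ 2 := hm hw
    exact le_max_of_le_right h2

/-- The volume condition, for a finite index type. -/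
theorem sum_pow_lt {ι : Type*} [Fintype ι] {R : ℝ} {r : ι → ℝ} (hn : 0 < n) (hR : 0 < R)
    (hr : ∀ i, 0 < r i) (h : Packs (openBall n R) r) : ∑ i, r i ^ n < R ^ n := by
  obtain ⟨f, hf, hs, hd⟩ := h
  obtain ⟨R', hR'0, hR', hsub⟩ := exists_closedBall
    (isCompact_iUnion fun i => isCompact_image (hf i)) hR (iUnion_subset hs)
  have h1 : volume (⋃ i, f i '' closedBall n (r i)) = ∑ i, volume (closedBall n (r i)) := by
    rw [measure_iUnion hd fun i => (isCompact_image (hf i)).measurableSet, tsum_fintype]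
    exact Finset.sum_congr rfl fun i _ => volume_image (hf i)
  have h2 : ∑ i, volume (closedBall n (r i)) ≤ volume (closedBall n R') :=
    h1 ▸ measure_mono hsub
  have h3 : ∑ i, ENNReal.ofReal (r i ^ n) * volume (closedBall n 1) ≤
      ENNReal.ofReal (R' ^ n) * volume (closedBall n 1) := by
    rw [← volume_closedBall hR'0]
    refine le_trans (le_of_eq ?_) h2
    exact Finset.sum_congr rfl fun i _ => (volume_closedBall (hr i)).symm
  rw [← Finset.sum_mul, ← ENNReal.ofReal_sum_of_nonneg fun i _ => by have := hr i; positivity,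
    ENNReal.mul_le_mul_iff_left (volume_closedBall_pos one_pos).ne'
      (volume_closedBall_lt_top 1).ne, ENNReal.ofReal_le_ofReal_iff (by positivity)] at h3
  exact h3.trans_lt (pow_lt_pow_left₀ hR' hR'0.le hn.ne')

/-- Row VOL. -/
theorem VOL : H710.Nec.VOL_statement := fun _ _ _ _ hn hR hr h => sum_pow_lt hn hR hr h

end

end Vale.Agent.P209.H753
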