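import Mathlib

/-!
# Smooth approximation of a continuous function on an open set

`exists_smooth_between`: a continuous function on an open subset `U` of a finite-dimensional
space can be approximated on all of `U` by a function which is smooth on `U`, with prescribed
one-sided error bounds.
-/

open Set Filter TopologicalSpace
open scoped Topology ContDiff Manifold

namespace Vale.Agent.P209.H753

variable {E : Type*} [NormedAddCommGroup E] [NormedSpace ℝ E] [FiniteDimensional ℝ E]

/-- Smooth approximation on an open set, uniform error `ε`. -/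
theorem exists_smooth_dist {U : Set E} (hU : IsOpen U) {g : E → ℝ} (hg : ContinuousOn g U)
    {ε : ℝ} (hε : 0 < ε) :
    ∃ G : E → ℝ, ContDiffOn ℝ ∞ G U ∧ ∀ x ∈ U, |G x - g x| < ε := by
  classical
  have : ProperSpace E := FiniteDimensional.proper_real E
  have : SecondCountableTopology E := inferInstance
  let O : Opens E := ⟨U, hU⟩
  have : LocallyCompactSpace O := hU.locallyCompactSpace
  have : SigmaCompactSpace O := inferInstance
  have hcont : Continuous (fun x : O => g x.1) := by
    have := continuousOn_iff_continuous_domRestrict.mp hg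
    exact this
  obtain ⟨G, hG, -⟩ := hcont.exists_contMDiff_approx 𝓘(ℝ, E) (⊤ : ℕ∞)
    (ε := fun _ => ε) continuous_const (fun _ => hε)
  let G' : E → ℝ := fun x => if h : x ∈ U then G ⟨x, h⟩ else 0
  have hG' : (fun x : O => G' x.1) = (fun x : O => G x) := by
    funext x
    have : x.1 ∈ U := x.2
    simp [G', this]
  refine ⟨G', ?_, ?_⟩
  · intro x hx
    have h1 : ContMDiffAt 𝓘(ℝ, E) 𝓘(ℝ, ℝ) ∞ (fun y : O => G' y.1) (⟨x, hx⟩ : O) := by
      rw [hG']
      exact G.contMDiff.contMDiffAt
    have h2 : ContMDiffAt 𝓘(ℝ, E) 𝓘(ℝ, ℝ) ∞ G' x := by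
      have := (contMDiffAt_subtype_iff (U := O) (f := G') (x := ⟨x, hx⟩)).mp h1
      exact this
    exact h2.contDiffAt.contDiffWithinAt
  · intro x hx
    have := hG ⟨x, hx⟩
    simpa [G', hx, Real.dist_eq] using this

/-- Smooth approximation on an open set with one-sided bounds `g + a < G < g + b`. -/
theorem exists_smooth_between {U : Set E} (hU : IsOpen U) {g : E → ℝ} (hg : ContinuousOn g U)
    {a b : ℝ} (hab : a < b) :
    ∃ G : E → ℝ, ContDiffOn ℝ ∞ G U ∧ ∀ x ∈ U, g x + a < G x ∧ G x < g x + b := by
  obtain ⟨G, hG, hd⟩ := exists_smooth_dist hU hg (half_pos (sub_pos.mpr hab))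
  refine ⟨fun x => G x + (a + b) / 2, hG.add contDiffOn_const, fun x hx => ?_⟩
  have := abs_lt.mp (hd x hx)
  constructor
  · have := this.1
    show g x + a < G x + (a + b) / 2
    linarith
  · have := this.2
    show G x + (a + b) / 2 < g x + b
    linarith

/-- Version along a continuous map `φ` (for instance `x ↦ |x|` coordinatewise: a function on a
relatively open subset of the orthant is replaced by its even reflection). -/
theorem exists_smooth_comp {X : Type*} [TopologicalSpace X] {Q : Set X} {φ : E → X}
    (hφ : Continuous φ) (hU : IsOpen {x | φ x ∈ Q}) {g : X → ℝ} (hg : ContinuousOn g Q)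
    {a b : ℝ} (hab : a < b) :
    ∃ G : E → ℝ, ContDiffOn ℝ ∞ G {x | φ x ∈ Q} ∧
      ∀ x, φ x ∈ Q → g (φ x) + a < G x ∧ G x < g (φ x) + b :=
  exists_smooth_between hU (g := fun x => g (φ x))
    (hg.comp hφ.continuousOn (fun _ hx => hx)) hab

/-- Coordinatewise absolute value. -/
def absv {d : ℕ} (x : Fin d → ℝ) : Fin d → ℝ := fun i => |x i|

theorem continuous_absv {d : ℕ} : Continuous (absv : (Fin d → ℝ) → (Fin d → ℝ)) :=
  continuous_pi fun i => (continuous_apply i).abs

theorem absv_of_nonneg {d : ℕ} {u : Fin d → ℝ} (hu : ∀ i, 0 ≤ u i) : absv u = u :=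
  funext fun i => abs_of_nonneg (hu i)

theorem absv_update {d : ℕ} (x : Fin d → ℝ) (a : Fin d) (t : ℝ) :
    absv (Function.update x a t) = Function.update (absv x) a |t| := by
  funext i
  by_cases h : i = a
  · subst h; simp [absv]
  · simp [absv, Function.update_of_ne h]

/-- Smoothing of a continuous function on a relatively open subset `Om` of the orthant, including
the faces: the result is smooth on the open set `{x | |x| ∈ Om}`. -/
theorem exists_smooth_orthant {d : ℕ} {Om : Set (Fin d → ℝ)} (hO : IsOpen {x | absv x ∈ Om})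
    {g : (Fin d → ℝ) → ℝ} (hg : ContinuousOn g Om) {a b : ℝ} (hab : a < b) :
    ∃ G : (Fin d → ℝ) → ℝ, ContDiffOn ℝ ∞ G {x | absv x ∈ Om} ∧
      ∀ u ∈ Om, (∀ i, 0 ≤ u i) → g u + a < G u ∧ G u < g u + b := by
  obtain ⟨G, hG, hb⟩ := exists_smooth_comp continuous_absv hO hg hab
  refine ⟨G, hG, fun u hu h0 => ?_⟩
  have := hb u (by rw [absv_of_nonneg h0]; exact hu)
  rwa [absv_of_nonneg h0] at this

/-- The open set of pairs `(p, x)` such that the line through `|x|` in direction `a` meets `Om`. -/
theorem isOpen_line {d : ℕ} {Om : Set (Fin d → ℝ)} (hO : IsOpen {x | absv x ∈ Om}) (a : Fin d) :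
    IsOpen {q : ℝ × (Fin d → ℝ) | Function.update (absv q.2) a 0 ∈ Om} := by
  have h : Continuous fun q : ℝ × (Fin d → ℝ) => Function.update q.2 a (0 : ℝ) :=
    continuous_snd.update a continuous_const
  have h2 := hO.preimage h
  have h3 : (fun q : ℝ × (Fin d → ℝ) => Function.update q.2 a (0 : ℝ)) ⁻¹' {x | absv x ∈ Om}
      = {q : ℝ × (Fin d → ℝ) | Function.update (absv q.2) a 0 ∈ Om} := by
    ext q
    simp [absv_update]
  rwa [h3] at h2

/-- Smoothing of a function `W p u` which does not depend on `u a` (a width in direction `a`).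
The result does not depend on the coordinate `a`, is smooth on an open set containing all
`(p, u)` with `u ≥ 0` whose `a`-line meets `Om`, and satisfies the prescribed bounds. -/
theorem exists_smooth_width {d : ℕ} {Om : Set (Fin d → ℝ)} (hO : IsOpen {x | absv x ∈ Om})
    (a : Fin d) {W : ℝ → (Fin d → ℝ) → ℝ}
    (hWa : ∀ p u t, W p (Function.update u a t) = W p u)
    (hW : ContinuousOn (fun q : ℝ × (Fin d → ℝ) => W q.1 (absv q.2))
      {q | Function.update (absv q.2) a 0 ∈ Om})
    {α β : ℝ} (hab : α < β) :
    ∃ D : ℝ × (Fin d → ℝ) → ℝ,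
      ContDiffOn ℝ ∞ D {q | Function.update (absv q.2) a 0 ∈ Om} ∧
      (∀ p v t, D (p, Function.update v a t) = D (p, v)) ∧
      ∀ p u, (∀ i, 0 ≤ u i) → Function.update u a 0 ∈ Om →
        W p u + α < D (p, u) ∧ D (p, u) < W p u + β := by
  have hV := isOpen_line hO a
  obtain ⟨G, hG, hb⟩ := exists_smooth_between hV hW hab
  refine ⟨fun q => G (q.1, Function.update q.2 a 0), ?_, ?_, ?_⟩
  · have hc : ContDiff ℝ ∞ fun q : ℝ × (Fin d → ℝ) => (q.1, Function.update q.2 a (0 : ℝ)) := by
      refine contDiff_fst.prodMk ?_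
      rw [contDiff_pi]
      intro i
      by_cases h : i = a
      · subst h; simpa using contDiff_const
      · simp only [Function.update_of_ne h]
        exact (contDiff_apply ℝ ℝ i).comp contDiff_snd
    refine hG.comp hc.contDiffOn ?_
    intro q hq
    simpa [absv_update] using hq
  · intro p v t
    simp
  · intro p u h0 hu
    have h1 := hb (p, Function.update u a 0) (by
      show Function.update (absv (Function.update u a 0)) a 0 ∈ Om
      rw [absv_update, abs_zero, Function.update_idem, absv_of_nonneg h0]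
      exact hu)
    have h2 : W p (absv (Function.update u a 0)) = W p u := by
      rw [absv_update, abs_zero, hWa, absv_of_nonneg h0]
    simp only [h2] at h1
    exact h1

end Vale.Agent.P209.H753
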